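import Vale.Agent.P192.H567.StmtDefs
import Vale.Agent.P192.H291.Unif4
import Vale.Agent.P192.H291.TrVf

/-!
# P192: several heads on a common line, two heads on a common tree

Finitely presented periodic groups acting on `(U × W 0 × ... × W (h - 1) × V) × Z ^ k`, as in
`TreeProducts`, but with an `L`-set `U` of asymptotic dimension at most one and with `k` heads
`z 0, ..., z (k - 1)` on a common set `Z` which are moved by powers of a permutation `τ` of `Z`,
where the steps may also depend on which of the heads are close to each other, have finite image,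
uniformly. The same holds for two heads on a common coloured free `M`-set, `M` virtually free, with
arbitrary rules if they are close to each other, and for products of two coloured free `M`-sets with
arbitrary rules on a set of asymptotic dimension at most one.
-/

namespace Vale.Agent.Results.P192.MultiHead

open Vale.Agent.P192.H567 Vale.Agent.P192.H479.Q

/-- **Several heads on a common set, two heads on a common tree.** `QC L U δ` says that the `L`-set
`U` has asymptotic dimension at most one, in the form of two-colourings with bounds `δ`, `VFree M`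
that `M` has a free subgroup of finite rank and finite index. -/
theorem result :
    -- (1) `h` counters and `k` heads on a common set between two actions
    (∀ (G : Type) [Group G] [Group.IsFinitelyPresented G], (∀ x : G, IsOfFinOrder x) →
      ∀ S : Set G, Subgroup.closure S = ⊤ →
      ∀ (L M : Type) [Group L] [Group M] (δ : Set L → ℕ), VFree M →
      ∀ (h k m r : ℕ) (K : Set (L × (Fin h → ℤ) × M × (Fin k → ℤ))), K.Finite →
      ∃ N : Subgroup G, N.Normal ∧ N.FiniteIndex ∧
        ∀ (U V Z : Type) [MulAction L U] [MulAction M V] (W : Fin h → Type)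
          (T : ∀ i, Equiv.Perm (W i)) (τ : Equiv.Perm Z),
        QC L U δ → (∀ (x : M) (v : V), x • v = v → x = 1) →
        ∀ ρ : G →* Equiv.Perm ((U × (∀ i, W i) × V) × (Fin k → Z)),
        (∀ g, (g ∈ S ∨ g⁻¹ ∈ S) → ∃ (a : ∀ i, W i → Fin m) (b : V → Fin m)
          (c : Fin k → Z → Fin m)
          (f : U → (Fin h → Fin m) → Fin m → (Fin k → Fin m) → (Fin k → Fin k → ℤ → Prop) →
            L × (Fin h → ℤ) × M × (Fin k → ℤ)),
          (∀ u α β γ o, f u α β γ o ∈ K) ∧
          ∀ u w v z x, x = f u (fun i => a i (w i)) (b v) (fun j => c j (z j))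
              (fun p q d => |d| ≤ (r : ℤ) ∧ (τ ^ d) (z p) = z q) →
            ρ g ((u, w, v), z) = ((x.1 • u, (fun i => (T i ^ x.2.1 i) (w i)), x.2.2.1 • v),
              fun j => (τ ^ x.2.2.2 j) (z j))) →
        ∀ g ∈ N, ρ g = 1) ∧
    -- (2) products of two free sets, arbitrary rules on a set of asymptotic dimension at most one
    (∀ (G : Type) [Group G] [Group.IsFinitelyPresented G], (∀ x : G, IsOfFinOrder x) →
      ∀ S : Set G, Subgroup.closure S = ⊤ → ∀ (M : Type) [Group M], VFree M →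
      ∀ (n m : ℕ) (K : Set M), K.Finite → ∀ μ : Set M → ℕ,
      ∃ N : Subgroup G, N.Normal ∧ N.FiniteIndex ∧ ∀ (Q V W : Type) [Finite Q]
        [MulAction M V] [MulAction M W], Nat.card Q ≤ n →
        (∀ (x : M) (v : V), x • v = v → x = 1) → (∀ (x : M) (w : W), x • w = w → x = 1) →
        ∀ D : Set (V × W), (∀ E : Set M, E.Finite → ∃ C : Set (V × W), ∀ p,
          {p' | Relation.ReflTransGen (fun a b => a ∈ D ∧ b ∈ D ∧ (a ∈ C ↔ b ∈ C) ∧
            ∃ x ∈ E, ∃ y ∈ E, x • a.1 = b.1 ∧ y • a.2 = b.2) p p'}.encard ≤ μ E) →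
        ∀ ρ : G →* Equiv.Perm (Q × V × W),
        (∀ g, (g ∈ S ∨ g⁻¹ ∈ S) →
          (∀ a, ∃ x ∈ K, ∃ y ∈ K, x • a.2.1 = (ρ g a).2.1 ∧ y • a.2.2 = (ρ g a).2.2) ∧
          ∃ (b₁ : V → Fin m) (b₂ : W → Fin m) (f : Q → Fin m → Fin m → Q × M × M),
            (∀ i α β, (f i α β).2.1 ∈ K ∧ (f i α β).2.2 ∈ K) ∧
            ∀ i v w, (v, w) ∉ D → ρ g (i, v, w) = ((f i (b₁ v) (b₂ w)).1,
              (f i (b₁ v) (b₂ w)).2.1 • v, (f i (b₁ v) (b₂ w)).2.2 • w)) →
        ∀ g ∈ N, ρ g = 1) ∧
    -- (3) two heads on a common free set, arbitrary rules if they are close to each other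
    (∀ (G : Type) [Group G] [Group.IsFinitelyPresented G], (∀ x : G, IsOfFinOrder x) →
      ∀ S : Set G, Subgroup.closure S = ⊤ → ∀ (M : Type) [Group M], VFree M →
      ∀ (n m : ℕ) (K B : Set M), K.Finite → B.Finite →
      ∃ N : Subgroup G, N.Normal ∧ N.FiniteIndex ∧ ∀ (Q V : Type) [Finite Q]
        [MulAction M V], Nat.card Q ≤ n → (∀ (x : M) (v : V), x • v = v → x = 1) →
        ∀ ρ : G →* Equiv.Perm (Q × V × V),
        (∀ g, (g ∈ S ∨ g⁻¹ ∈ S) → ∃ (b₁ b₂ : V → Fin m) (f : Q → Fin m → Fin m → Q × M × M),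
          (∀ i α β, (f i α β).2.1 ∈ K ∧ (f i α β).2.2 ∈ K) ∧
          ∀ i v w, ((∃ x ∈ B, x • v = w) →
              ∃ x ∈ K, ∃ y ∈ K, (ρ g (i, v, w)).2 = (x • v, y • w)) ∧
            ((∀ x ∈ B, x • v ≠ w) → ρ g (i, v, w) = ((f i (b₁ v) (b₂ w)).1,
              (f i (b₁ v) (b₂ w)).2.1 • v, (f i (b₁ v) (b₂ w)).2.2 • w))) →
        ∀ g ∈ N, ρ g = 1) := by
  refine ⟨?_, ?_, ?_⟩
  · rintro G _ _ hG S hS L M _ _ δ ⟨Γ, k₀, hΓ, ⟨e⟩⟩ h k m r K hK
    exact Vale.Agent.P192.H291.mh_wtQ G hG S hS L M δ Γ k₀ e h k m r K hK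
  · rintro G _ _ hG S hS M _ ⟨Γ, k₀, hΓ, ⟨e⟩⟩ n m K hK μ
    exact Vale.Agent.P192.H291.tree_defectsM G hG S hS M Γ k₀ e n m K hK μ
  · rintro G _ _ hG S hS M _ ⟨Γ, k₀, hΓ, ⟨e⟩⟩ n m K B hK hB
    exact Vale.Agent.P192.H291.two_headsM G hG S hS M Γ k₀ e n m K B hK hB

end Vale.Agent.Results.P192.MultiHead
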