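import Vale.Agent.P192.H479.Q11
import Vale.Agent.P192.H176.Wd6
import Vale.Agent.P192.H823.HW4

/-!
# P192: heads, piecewise isometries of the line and of the plane

For finitely presented periodic groups `G` and given bounds, one normal subgroup of finite index acts
trivially in all actions of `G`, within these bounds, on `X × W 0 × ... × W (k₀ - 1) × 𝕜 × Z ^ k`,
where `𝕜` is an ordered field, the `W i` are sets with arbitrary permutations `T i`, `Z` is a set with
an arbitrary permutation `τ`, `Z ^ k` are the positions of `k` heads, which see the colours under them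
and each other at bounded distances, and `X` is a graph of bounded degree and asymptotic dimension at
most one, whose points are moved by bounded distances, or a set of infinite words, and on
`𝕜 × W 0 × ... × W (k₀ - 1) × 𝕜 × Z ^ k`. The coordinates in `𝕜` are moved by isometries, on points
and open intervals between finitely many points. For example rectangle exchanges, also with
reflections and quarter turns.
-/

namespace Vale.Agent.Results.P192.RectangleExchanges

open Vale.Agent.P192.H567 Vale.Agent.P192.H479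

/-- **Heads and piecewise isometries.** `CellK B x x'` says that `x` and `x'` have the same position
relative to the points of `B`; `pre n ξ` is the list of the first `n` letters of `ξ`, `rep p n ξ` is
`ξ` with its first `n` letters replaced by `p`, `Aper ξ` says that `ξ` is not eventually periodic. -/
theorem result :
    -- (1) heads, graph of asymptotic dimension at most one, counters, line
    (∀ (G : Type) [Group G] [Group.IsFinitelyPresented G], (∀ x : G, IsOfFinOrder x) →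
      ∀ S : Set G, Subgroup.closure S = ⊤ →
      ∀ (k₀ k m r c Δ : ℕ) (δ : ℕ → ℕ) (K : Set ((Fin k₀ → ℤ) × (Fin k → ℤ))), K.Finite →
      ∃ N : Subgroup G, N.Normal ∧ N.FiniteIndex ∧
        ∀ (𝕜 : Type) [Field 𝕜] [LinearOrder 𝕜] [IsStrictOrderedRing 𝕜]
          (X : Type) (Γ : SimpleGraph X), (∀ v, (Γ.neighborSet v).encard ≤ Δ) →
          (∀ l : ℕ, ∃ C : Set X, ∀ v, {v' | Relation.ReflTransGen
            (fun a b => (a ∈ C ↔ b ∈ C) ∧ Γ.edist a b ≤ l) v v'}.encard ≤ δ l) →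
        ∀ (W : Fin k₀ → Type) (T : ∀ i, Equiv.Perm (W i)) (Z : Type) (τ : Equiv.Perm Z)
          (ρ : G →* Equiv.Perm ((X × (∀ i, W i) × 𝕜) × (Fin k → Z))),
        (∀ s ∈ S, ∃ (b : ∀ i, W i → Fin m) (a : Fin k → Z → Fin m) (B R : Finset 𝕜),
          B.card ≤ m ∧ R.card ≤ m ∧
          ∀ (v : X) (w : ∀ i, W i) (x : 𝕜) (z : Fin k → Z), ∃ v' : X, Γ.edist v v' ≤ c ∧
            ∃ q ∈ K, ∃ t ∈ R, ∃ e : 𝕜, |e| = 1 ∧
              ∀ w' : ∀ i, W i, (∀ i, b i (w i) = b i (w' i)) → ∀ x' : 𝕜, CellK B x x' →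
                ∀ z' : Fin k → Z, (∀ j, a j (z j) = a j (z' j)) →
                (∀ (i j : Fin k) (d : ℤ), |d| ≤ r →
                  ((τ ^ d) (z i) = z j ↔ (τ ^ d) (z' i) = z' j)) →
                ρ s ((v, w', x'), z') =
                  ((v', fun i => (T i ^ q.1 i) (w' i), e * x' + t),
                    fun j => (τ ^ q.2 j) (z' j))) →
        ∀ g ∈ N, ρ g = 1) ∧
    -- (2) heads, plane, counters
    (∀ (G : Type) [Group G] [Group.IsFinitelyPresented G], (∀ x : G, IsOfFinOrder x) →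
      ∀ S : Set G, Subgroup.closure S = ⊤ →
      ∀ (k₀ k m r : ℕ) (K : Set ((Fin k₀ → ℤ) × (Fin k → ℤ))), K.Finite →
      ∃ N : Subgroup G, N.Normal ∧ N.FiniteIndex ∧
        ∀ (𝕜 : Type) [Field 𝕜] [LinearOrder 𝕜] [IsStrictOrderedRing 𝕜]
          (W : Fin k₀ → Type) (T : ∀ i, Equiv.Perm (W i)) (Z : Type) (τ : Equiv.Perm Z)
          (ρ : G →* Equiv.Perm ((𝕜 × (∀ i, W i) × 𝕜) × (Fin k → Z))),
        (∀ s ∈ S, ∃ (b : ∀ i, W i → Fin m) (a : Fin k → Z → Fin m) (B R : Finset 𝕜),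
          B.card ≤ m ∧ R.card ≤ m ∧
          ∀ (x : 𝕜) (w : ∀ i, W i) (y : 𝕜) (z : Fin k → Z), ∃ q ∈ K, ∃ p ∈ R, ∃ t ∈ R,
            ∃ e d : 𝕜, |e| = 1 ∧ |d| = 1 ∧
            ((∀ x' : 𝕜, CellK B x x' → ∀ w' : ∀ i, W i, (∀ i, b i (w i) = b i (w' i)) →
                ∀ y' : 𝕜, CellK B y y' → ∀ z' : Fin k → Z, (∀ j, a j (z j) = a j (z' j)) →
                (∀ (i j : Fin k) (d : ℤ), |d| ≤ r →
                  ((τ ^ d) (z i) = z j ↔ (τ ^ d) (z' i) = z' j)) →
                ρ s ((x', w', y'), z') =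
                  ((e * x' + p, fun i => (T i ^ q.1 i) (w' i), d * y' + t),
                    fun j => (τ ^ q.2 j) (z' j))) ∨
              ∀ x' : 𝕜, CellK B x x' → ∀ w' : ∀ i, W i, (∀ i, b i (w i) = b i (w' i)) →
                ∀ y' : 𝕜, CellK B y y' → ∀ z' : Fin k → Z, (∀ j, a j (z j) = a j (z' j)) →
                (∀ (i j : Fin k) (d : ℤ), |d| ≤ r →
                  ((τ ^ d) (z i) = z j ↔ (τ ^ d) (z' i) = z' j)) →
                ρ s ((x', w', y'), z') =
                  ((e * y' + p, fun i => (T i ^ q.1 i) (w' i), d * x' + t),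
                    fun j => (τ ^ q.2 j) (z' j)))) →
        ∀ g ∈ N, ρ g = 1) ∧
    -- (3) heads, infinite words, counters, line
    (∀ (G : Type) [Group G] [Group.IsFinitelyPresented G], (∀ x : G, IsOfFinOrder x) →
      ∀ S : Set G, Subgroup.closure S = ⊤ →
      ∀ (A : Type) [Finite A] (k₀ k m n r : ℕ) (K : Set ((Fin k₀ → ℤ) × (Fin k → ℤ))), K.Finite →
      ∃ N : Subgroup G, N.Normal ∧ N.FiniteIndex ∧
        ∀ (𝕜 : Type) [Field 𝕜] [LinearOrder 𝕜] [IsStrictOrderedRing 𝕜] (P : Set (ℕ → A)),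
          (∀ ξ ∈ P, ∀ i, ∃ ξ' ∈ P, Aper ξ' ∧ ∀ j < i, ξ' j = ξ j) →
        ∀ (W : Fin k₀ → Type) (T : ∀ i, Equiv.Perm (W i)) (Z : Type) (τ : Equiv.Perm Z)
          (ρ : G →* Equiv.Perm ((P × (∀ i, W i) × 𝕜) × (Fin k → Z))),
        (∀ s ∈ S, ∃ (b : ∀ i, W i → Fin m) (a : Fin k → Z → Fin m) (B R : Finset 𝕜),
          B.card ≤ m ∧ R.card ≤ m ∧
          ∀ (v : P) (w : ∀ i, W i) (x : 𝕜) (z : Fin k → Z), ∃ p : List A, p.length ≤ m ∧
            ∃ q ∈ K, ∃ t ∈ R, ∃ e : 𝕜, |e| = 1 ∧ ∀ v' : P, pre n v.1 = pre n v'.1 →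
            ∀ w' : ∀ i, W i, (∀ i, b i (w i) = b i (w' i)) → ∀ x' : 𝕜, CellK B x x' →
              ∀ z' : Fin k → Z, (∀ j, a j (z j) = a j (z' j)) →
              (∀ (i j : Fin k) (d : ℤ), |d| ≤ r →
                ((τ ^ d) (z i) = z j ↔ (τ ^ d) (z' i) = z' j)) →
              ((ρ s ((v', w', x'), z')).1.1 : ℕ → A) = rep p n v' ∧
                (ρ s ((v', w', x'), z')).1.2 = (fun i => (T i ^ q.1 i) (w' i), e * x' + t) ∧
                (ρ s ((v', w', x'), z')).2 = fun j => (τ ^ q.2 j) (z' j)) →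
        ∀ g ∈ N, ρ g = 1) := by
  refine ⟨?_, ?_, ?_⟩
  · intro G _ _ hG S hS k₀ k m r c Δ δ K hK
    exact Vale.Agent.P192.QF.headsW_graphS G hG S hS k₀ k m r c Δ δ K hK
  · intro G _ _ hG S hS k₀ k m r K hK
    exact Vale.Agent.P192.H176.Hd.headsW_planeS G hG S hS k₀ k m r K hK
  · intro G _ _ hG S hS A _ k₀ k m n r K hK
    exact Vale.Agent.P192.H823.HW.headsW_wordsS G hG S hS A k₀ k m n r K hK

end Vale.Agent.Results.P192.RectangleExchanges
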