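import Vale.Agent.P192.H567.StmtDefs
import Vale.Agent.P192.H291.StmtDefs
import Vale.Agent.P192.H291.Thin3

/-!
# P192: local product structure outside thin sets

A finitely presented periodic group has a normal subgroup of finite index which fixes all points of
all actions near which the generators act as `k` heads on a line, with two free actions and `h`
counters. If the other points form a thin set, of asymptotic dimension at most one or of small
growth, then a normal subgroup of finite index acts trivially. In particular this holds for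
permutations of `Q × ℤ ^ k` of bounded displacement which are arbitrary on a thin set `D` of
`ℤ ^ k` and rules of `k`-head automata on each of the regions which are cut out by `D`.
-/

namespace Vale.Agent.Results.P192.ThinDefects

open Vale.Agent.P192.H567 Vale.Agent.P192.H291

/-- **Local product structure outside thin sets.** `VFree M` says that `M` has a free subgroup of
finite rank and finite index. -/
theorem result :
    -- (1) centres of charts, and charts outside a thin set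
    (∀ (G : Type) [Group G] [Group.IsFinitelyPresented G], (∀ x : G, IsOfFinOrder x) →
      ∀ S : Set G, Subgroup.closure S = ⊤ →
      ∀ (L M : Type) [Group L] [Group M] (δ : Set L → ℕ), VFree M →
      ∀ (h k m r : ℕ) (K : Set (L × (Fin h → ℤ) × M × (Fin k → ℤ))), K.Finite →
      ∃ (R A : ℕ) (N₁ : Subgroup G), N₁.Normal ∧ N₁.FiniteIndex ∧
        (∀ (X : Type) (ρ : G →* Equiv.Perm X) (p : X), Chart S δ h k m r R K ρ p →
          ∀ g ∈ N₁, ρ g p = p) ∧
        ∀ B t b : ℕ, A * b < t ^ 2 → ∃ N : Subgroup G, N.Normal ∧ N.FiniteIndex ∧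
          ∀ (X : Type) (ρ : G →* Equiv.Perm X) (D C : Set X),
          (∀ p ∉ D, Chart S δ h k m r R K ρ p) →
          ((∀ p ∈ D, {q | Relation.ReflTransGen (fun x y => y ∈ D ∧ (x ∈ C ↔ y ∈ C) ∧
            ∃ w : List G, (∀ s ∈ w, s ∈ S ∨ s⁻¹ ∈ S) ∧ w.length ≤ R ∧ ρ w.prod x = y) p q}.encard
              ≤ B) ∨
          (∀ p ∈ D, {q | q ∈ D ∧ ∃ w : List G, (∀ s ∈ w, s ∈ S ∨ s⁻¹ ∈ S) ∧ w.length ≤ t ∧
            ρ w.prod p = q}.encard ≤ b)) →
          ∀ g ∈ N, ρ g = 1) ∧
    -- (2) `k`-head automata on the regions of `ℤ ^ k` which are cut out by a thin set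
    (∀ (G : Type) [Group G] [Group.IsFinitelyPresented G], (∀ x : G, IsOfFinOrder x) →
      ∀ S : Set G, Subgroup.closure S = ⊤ → ∀ n k m c r : ℕ,
      ∃ A : ℕ, ∀ (μ : ℕ → ℕ) (t b : ℕ), A * b < t ^ 2 →
      ∃ N : Subgroup G, N.Normal ∧ N.FiniteIndex ∧ ∀ (Q : Type) [Finite Q], Nat.card Q ≤ n →
        ∀ D : Set (Fin k → ℤ), ((∀ l : ℕ, ∃ C : Set (Fin k → ℤ), ∀ z,
          {z' | Relation.ReflTransGen (fun x y => x ∈ D ∧ y ∈ D ∧ (x ∈ C ↔ y ∈ C) ∧
            ∀ j, |x j - y j| ≤ (l : ℤ)) z z'}.encard ≤ μ l) ∨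
          ∀ z ∈ D, {z' | z' ∈ D ∧ ∀ j, |z j - z' j| ≤ (t : ℤ)}.encard ≤ b) →
        ∀ (I : Type) (reg : (Fin k → ℤ) → I),
        (∀ z ∉ D, ∀ z' ∉ D, (∀ j, |z j - z' j| ≤ 1) → reg z = reg z') →
        ∀ ρ : G →* Equiv.Perm (Q × (Fin k → ℤ)),
        (∀ g, (g ∈ S ∨ g⁻¹ ∈ S) → (∀ q z j, |(ρ g (q, z)).2 j - z j| ≤ (c : ℤ)) ∧
          ∀ i : I, ∃ (a : Fin k → ℤ → Fin m)
            (f : Q → (Fin k → Fin m) → (Fin k → Fin k → ℤ → Prop) → Q × (Fin k → ℤ)),
            ∀ q z, z ∉ D → reg z = i → ∀ x, x = f q (fun j => a j (z j))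
                (fun p p' d => |d| ≤ (r : ℤ) ∧ z p + d = z p') →
              ρ g (q, z) = (x.1, z + x.2)) →
        ∀ g ∈ N, ρ g = 1) := by
  refine ⟨?_, ?_⟩
  · rintro G _ _ hG S hS L M _ _ δ ⟨Γ, k₀, hΓ, ⟨e⟩⟩ h k m r K hK
    exact charts_thin G hG S hS L M δ Γ k₀ e h k m r K hK
  · intro G _ _ hG S hS n k m c r
    exact regions G hG S hS n k m c r

end Vale.Agent.Results.P192.ThinDefects
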