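import Vale.Agent.P192.H567.StmtDefs
import Vale.Agent.P192.H567.CtTop
import Vale.Agent.P192.H567.CtV

/-!
# P192: products of two tree-like actions and any number of counters; the Brin-Thompson group 2V

Finitely presented periodic groups acting on a product `U × W 0 × ... × W (k - 1) × V`, where `U` is
a free `L`-set, `L` of asymptotic dimension at most one, `V` a free `M`-set, `M` virtually free of
finite rank, the `W i` are sets with arbitrary permutations `T i`, and the generators act by elements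
of `L × ℤ ^ k × M` which depend on finite colours of the coordinates, have finite image, uniformly.
The same for piecewise replacements of beginnings on products of two sets of infinite words, with
counters, for example for subgroups of the Brin-Thompson group 2V.
-/

namespace Vale.Agent.Results.P192.TreeProducts

open Vale.Agent.P192.H567

/-- **Products of two tree-like actions and any number of counters.** `TwoCol L` says that `L` has
asymptotic dimension at most one, in the form of two-colourings, `VFree M` that `M` has a free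
subgroup of finite rank and finite index, `rep p n ξ` is the infinite word `ξ` with its first `n`
letters replaced by the word `p`, `pre n ξ` the list of the first `n` letters, `Aper ξ` says that `ξ`
is not eventually periodic. -/
theorem result :
    -- (1) uniform form
    (∀ (G : Type) [Group G] [Group.IsFinitelyPresented G], (∀ x : G, IsOfFinOrder x) →
      ∀ S : Set G, Subgroup.closure S = ⊤ →
      ∀ (L M : Type) [Group L] [Group M], TwoCol L → VFree M →
      ∀ (k m : ℕ) (K : Set (L × (Fin k → ℤ) × M)), K.Finite →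
      ∃ N : Subgroup G, N.Normal ∧ N.FiniteIndex ∧
        ∀ (U V : Type) [MulAction L U] [MulAction M V] (W : Fin k → Type)
          (T : ∀ i, Equiv.Perm (W i)),
        (∀ (l : L) (u : U), l • u = u → l = 1) → (∀ (x : M) (v : V), x • v = v → x = 1) →
        ∀ ρ : G →* Equiv.Perm (U × (∀ i, W i) × V),
        (∀ s, (s ∈ S ∨ s⁻¹ ∈ S) → ∃ (a : ∀ i, W i → Fin m) (b : V → Fin m)
          (f : U → (Fin k → Fin m) → Fin m → L × (Fin k → ℤ) × M),
          (∀ u α β, f u α β ∈ K) ∧ ∀ u w v, ρ s (u, w, v) =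
            ((f u (fun i => a i (w i)) (b v)).1 • u,
            (fun i => (T i ^ (f u (fun i => a i (w i)) (b v)).2.1 i) (w i)),
            (f u (fun i => a i (w i)) (b v)).2.2 • v)) →
        ∀ g ∈ N, ρ g = 1) ∧
    -- (2) topological full groups of products of two free actions and permutations
    (∀ (G : Type) [Group G] [Group.IsFinitelyPresented G], (∀ x : G, IsOfFinOrder x) →
      ∀ (L M : Type) [Group L] [Group M], TwoCol L → VFree M → ∀ (k : ℕ)
        (U V : Type) [TopologicalSpace U] [TopologicalSpace V] [CompactSpace U] [CompactSpace V]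
        [MulAction L U] [MulAction M V] (W : Fin k → Type) [∀ i, TopologicalSpace (W i)]
        [∀ i, CompactSpace (W i)] (T : ∀ i, Equiv.Perm (W i)),
      (∀ (l : L) (u : U), l • u = u → l = 1) → (∀ (x : M) (v : V), x • v = v → x = 1) →
      ∀ ρ : G →* Equiv.Perm (U × (∀ i, W i) × V),
      (∀ g, ∃ c : U × (∀ i, W i) × V → L × (Fin k → ℤ) × M, IsLocallyConstant c ∧
        ∀ z, ρ g z = ((c z).1 • z.1, (fun i => (T i ^ (c z).2.1 i) (z.2.1 i)),
          (c z).2.2 • z.2.2)) → Finite ρ.range) ∧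
    -- (3) which groups are allowed in the first factor
    (∀ (L : Type) [Group L], VFree L → TwoCol L) ∧
    (∀ (L : Type) [Group L] (π : L →* Multiplicative ℤ),
      (∀ Q : Set L, Q.Finite → (∀ q ∈ Q, π q = 1) → (Subgroup.closure Q : Set L).Finite) →
      TwoCol L) ∧
    -- (4) piecewise replacements on products of two sets of infinite words, with counters
    (∀ (G : Type) [Group G] [Group.IsFinitelyPresented G], (∀ x : G, IsOfFinOrder x) →
      ∀ (X Y : Type) [Finite X] [Finite Y] (Ω₁ : Set (ℕ → X)) (Ω₂ : Set (ℕ → Y)),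
      (∀ ξ ∈ Ω₁, ∀ n, ∃ ξ' ∈ Ω₁, Aper ξ' ∧ ∀ i < n, ξ' i = ξ i) →
      (∀ η ∈ Ω₂, ∀ n, ∃ η' ∈ Ω₂, Aper η' ∧ ∀ i < n, η' i = η i) →
      ∀ (k : ℕ) (W : Fin k → Type) (T : ∀ i, Equiv.Perm (W i))
        (ρ : G →* Equiv.Perm (Ω₁ × (∀ i, W i) × Ω₂)),
      (∀ g, ∃ (n : ℕ) (a : ∀ i, W i → Fin n)
        (P : List X → (Fin k → Fin n) → List Y → List X × (Fin k → ℤ) × List Y),
        ∀ z : Ω₁ × (∀ i, W i) × Ω₂,
        ((ρ g z).1 : ℕ → X) = rep (P (pre n z.1) (fun i => a i (z.2.1 i)) (pre n z.2.2)).1 n z.1 ∧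
        (ρ g z).2.1 = (fun i => (T i ^ (P (pre n z.1) (fun i => a i (z.2.1 i))
          (pre n z.2.2)).2.1 i) (z.2.1 i)) ∧
        ((ρ g z).2.2 : ℕ → Y) =
          rep (P (pre n z.1) (fun i => a i (z.2.1 i)) (pre n z.2.2)).2.2 n z.2.2) →
      Finite ρ.range) ∧
    -- (5) the Brin-Thompson group 2V
    (∀ (G : Type) [Group G] [Group.IsFinitelyPresented G], (∀ x : G, IsOfFinOrder x) →
      ∀ (X Y : Type) [Finite X] [Nontrivial X] [Finite Y] [Nontrivial Y]
        (ρ : G →* Equiv.Perm ((ℕ → X) × (ℕ → Y))),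
      (∀ g, ∃ (n : ℕ) (P : List X → List Y → List X × List Y), ∀ z : (ℕ → X) × (ℕ → Y),
        ρ g z = (rep (P (pre n z.1) (pre n z.2)).1 n z.1,
          rep (P (pre n z.1) (pre n z.2)).2 n z.2)) →
      Finite ρ.range) := by
  refine ⟨?_, ?_, ?_, ?_, ?_, ?_⟩
  · rintro G _ _ hG S hS L M _ _ hL ⟨Γ, k₀, hΓ, ⟨e⟩⟩ k m K hK
    exact ct_uniform G hG S hS L M hL Γ k₀ e k m K hK
  · rintro G _ _ hG L M _ _ hL ⟨Γ, k₀, hΓ, ⟨e⟩⟩ k U V _ _ _ _ _ _ W _ _ T hU hV ρ hρ
    exact ct_top G hG L M hL Γ k₀ e k U V W T hU hV ρ hρ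
  · rintro L _ ⟨Γ, k, hΓ, ⟨e⟩⟩ E hE
    exact ad_vfree L Γ k e E hE
  · intro L _ π hker E hE
    exact Vale.Agent.P192.H437.lfz L π hker E hE
  · intro G _ _ hG X Y _ _ Ω₁ Ω₂ h1 h2 k W T ρ hρ
    refine ctV G hG X Y Ω₁ Ω₂ Subtype.val Subtype.val Subtype.val_injective Subtype.val_injective
      ?_ ?_ k W T ρ hρ
    · intro ω n
      obtain ⟨ξ', h3, h4, h5⟩ := h1 ω.1 ω.2 n
      exact ⟨⟨ξ', h3⟩, h4, h5⟩
    · intro ω n
      obtain ⟨ξ', h3, h4, h5⟩ := h2 ω.1 ω.2 n
      exact ⟨⟨ξ', h3⟩, h4, h5⟩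
  · intro G _ _ hG X Y _ _ _ _ ρ hρ
    refine twoV G hG X Y (ℕ → X) (ℕ → Y) id id Function.injective_id Function.injective_id
      (fun ω n => exists_aper ω n) (fun ω n => exists_aper ω n) ρ ?_
    intro g
    obtain ⟨n, P, hP⟩ := hρ g
    refine ⟨n, P, fun z => ?_⟩
    rw [hP z]
    exact ⟨rfl, rfl⟩

end Vale.Agent.Results.P192.TreeProducts
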